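import Vale.Agent.P011.H872.GF.Diag

/-!
# Characteristic two: triangular maps `Y` with `Y I = (I + 1) Y`, and hermitian forms

`I * I = I + ν`, `Y0 * Y0 = 1`, `Y0 * I = (I + 1) * Y0`.
-/

open Matrix Module Polynomial

set_option linter.unusedSectionVars false

namespace Vale.Agent.P011.H961.C2.Diag

open Vale.Agent.P011.H487
open Vale.Agent.P011.H872.GF (E1 mem_E1 exists_orth)

section pair

variable {F V : Type*} [Field F] [AddCommGroup V] [Module F V] {ν : F} {T Y0 : V →ₗ[F] V}

theorem vv (h2 : (2 : F) = 0) (x : V) : x + x = 0 := by rw [← two_smul F x, h2, zero_smul]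

theorem neg_v (h2 : (2 : F) = 0) (x : V) : -x = x := neg_eq_of_add_eq_zero_left (vv h2 x)

variable (h2 : (2 : F) = 0) (hY : ∀ x, Y0 (Y0 x) = x) (hYT : ∀ x, Y0 (T x) = T (Y0 x) + Y0 x)
include h2 hY hYT

/-- The space is the sum of the fixed vectors and of their images by `T`. -/
theorem exists_equiv : ∃ e : (E1 Y0 × E1 Y0) ≃ₗ[F] V, ∀ x y : E1 Y0, e (x, y) = x + T y := by
  let g : (E1 Y0 × E1 Y0) →ₗ[F] V :=
    (E1 Y0).subtype.coprod (T.comp (E1 Y0).subtype)
  have hg : ∀ x y : E1 Y0, g (x, y) = x + T y := fun x y => by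
    rw [LinearMap.coprod_apply, LinearMap.comp_apply]
    rfl
  have hbij : Function.Bijective g := ?_
  · exact ⟨LinearEquiv.ofBijective g hbij, fun x y => by rw [LinearEquiv.ofBijective_apply, hg]⟩
  constructor
  · rw [← LinearMap.ker_eq_bot, Submodule.eq_bot_iff]
    rintro ⟨x, y⟩ hxy
    rw [LinearMap.mem_ker, hg] at hxy
    have h1 := congrArg Y0 hxy
    rw [map_add, hYT, mem_E1.mp x.2, mem_E1.mp y.2, map_zero, ← add_assoc, hxy, zero_add] at h1
    rw [h1, map_zero, add_zero] at hxy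
    exact Prod.ext (Subtype.ext hxy) (Subtype.ext h1)
  · intro v
    have hy : Y0 v + v ∈ E1 Y0 := by
      rw [mem_E1, map_add, hY, add_comm]
    have hx : v + T (Y0 v + v) ∈ E1 Y0 := by
      rw [mem_E1, map_add, hYT, mem_E1.mp hy]
      have e : Y0 v + (T (Y0 v + v) + (Y0 v + v)) = v + T (Y0 v + v) + (Y0 v + Y0 v) := by abel
      rw [e, vv h2, add_zero]
    refine ⟨(⟨_, hx⟩, ⟨_, hy⟩), ?_⟩
    rw [hg]
    change v + T (Y0 v + v) + T (Y0 v + v) = v
    rw [add_assoc, vv h2, add_zero]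

/-- A basis adapted to `T`. -/
theorem exists_basis {ι : Type*} (b : Basis ι F (E1 Y0)) :
    ∃ P : Basis (ι ⊕ ι) F V, (∀ i, P (.inl i) = b i) ∧ ∀ i, P (.inr i) = T (b i) := by
  obtain ⟨e, he⟩ := exists_equiv h2 hY hYT
  refine ⟨(b.prod b).map e, fun i => ?_, fun i => ?_⟩
  · rw [Basis.map_apply, Basis.prod_apply, Sum.elim_inl, Function.comp_apply,
      LinearMap.inl_apply, he]
    simp
  · rw [Basis.map_apply, Basis.prod_apply, Sum.elim_inr, Function.comp_apply,
      LinearMap.inr_apply, he]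
    simp

/-- The dimension. -/
theorem finrank_E1 [FiniteDimensional F V] {m : ℕ} (hV : finrank F V = 2 * m) :
    finrank F (E1 Y0) = m := by
  obtain ⟨e, -⟩ := exists_equiv h2 hY hYT
  have h3 := e.finrank_eq
  rw [finrank_prod, hV] at h3
  omega

end pair

section diag

variable {F V : Type*} [Field F] [AddCommGroup V] [Module F V] {ν : F} {T : V →ₗ[F] V}

/-- The map which is triangular in an adapted basis. -/
noncomputable def dg {ι : Type*} (P : Basis (ι ⊕ ι) F V) (c : ι → F) : V →ₗ[F] V :=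
  P.constr F (Sum.elim (fun i => c i • P (.inl i)) (fun i => c i • P (.inl i) + c i • P (.inr i)))

theorem dg_inl {ι : Type*} (P : Basis (ι ⊕ ι) F V) (c : ι → F) (i : ι) :
    dg P c (P (.inl i)) = c i • P (.inl i) := by
  rw [dg, Basis.constr_basis, Sum.elim_inl]

theorem dg_inr {ι : Type*} (P : Basis (ι ⊕ ι) F V) (c : ι → F) (i : ι) :
    dg P c (P (.inr i)) = c i • P (.inl i) + c i • P (.inr i) := by
  rw [dg, Basis.constr_basis, Sum.elim_inr]

/-- The commutation with `T`. -/
theorem dg_comm (h2 : (2 : F) = 0) {ι : Type*} (P : Basis (ι ⊕ ι) F V) (c : ι → F)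
    (hT : ∀ x, T (T x) = T x + ν • x)
    (hP : ∀ i, P (.inr i) = T (P (.inl i))) (x : V) : dg P c (T x) = T (dg P c x) + dg P c x := by
  have h1 : (dg P c).comp T = T.comp (dg P c) + dg P c := by
    refine P.ext fun i => ?_
    rcases i with i | i
    · rw [LinearMap.comp_apply, LinearMap.add_apply, LinearMap.comp_apply, dg_inl, ← hP, dg_inr,
        map_smul, ← hP, add_comm]
    · rw [LinearMap.comp_apply, LinearMap.add_apply, LinearMap.comp_apply, dg_inr, map_add,
        map_smul, map_smul, hP, hT, map_add, map_smul, dg_inl, ← hP, dg_inr]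
      obtain ⟨x, hx⟩ : ∃ x, x = c i • P (.inl i) := ⟨_, rfl⟩
      obtain ⟨y, hy⟩ : ∃ y, y = c i • P (.inr i) := ⟨_, rfl⟩
      rw [smul_add, ← hx, ← hy, smul_comm, ← hx]
      have e : y + (y + ν • x) + (x + y) = x + y + ν • x + (y + y) := by
        abel
      rw [e, vv h2, add_zero]
  have h3 := LinearMap.congr_fun h1 x
  rwa [LinearMap.comp_apply, LinearMap.add_apply, LinearMap.comp_apply] at h3

/-- Its characteristic polynomial. -/
theorem dg_charpoly (h2 : (2 : F) = 0) {ι : Type*} [Fintype ι] [DecidableEq ι]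
    [FiniteDimensional F V] (P : Basis (ι ⊕ ι) F V) (c : ι → F) :
    (dg P c).charpoly = ∏ i, (X ^ 2 - C (c i ^ 2)) := by
  rw [← LinearMap.charpoly_toMatrix (dg P c) P]
  have h1 : LinearMap.toMatrix P P (dg P c) = fromBlocks (diagonal c) (diagonal c) 0 (diagonal c) := by
    ext i j
    rw [LinearMap.toMatrix_apply]
    rcases j with j | j
    · rw [dg_inl, map_smul, Basis.repr_self, Finsupp.smul_apply, smul_eq_mul]
      rcases i with i | i
      · rw [fromBlocks_apply₁₁]
        by_cases hij : i = j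
        · rw [hij, diagonal_apply_eq, Finsupp.single_eq_same, mul_one]
        · rw [diagonal_apply_ne _ hij, Finsupp.single_eq_of_ne (by simpa using hij),
            mul_zero]
      · rw [fromBlocks_apply₂₁, Finsupp.single_eq_of_ne (by simp), mul_zero, Matrix.zero_apply]
    · rw [dg_inr, map_add, map_smul, map_smul, Basis.repr_self, Basis.repr_self,
        Finsupp.add_apply, Finsupp.smul_apply, Finsupp.smul_apply, smul_eq_mul, smul_eq_mul]
      rcases i with i | i
      · rw [fromBlocks_apply₁₂, Finsupp.single_eq_of_ne (a := Sum.inr j) (by simp), mul_zero,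
          add_zero]
        by_cases hij : i = j
        · rw [hij, diagonal_apply_eq, Finsupp.single_eq_same, mul_one]
        · rw [diagonal_apply_ne _ hij, Finsupp.single_eq_of_ne (by simpa using hij),
            mul_zero]
      · rw [fromBlocks_apply₂₂, Finsupp.single_eq_of_ne (a := Sum.inl j) (by simp), mul_zero,
          zero_add]
        by_cases hij : i = j
        · rw [hij, diagonal_apply_eq, Finsupp.single_eq_same, mul_one]
        · rw [diagonal_apply_ne _ hij, Finsupp.single_eq_of_ne (by simpa using hij),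
            mul_zero]
  rw [h1, charpoly_fromBlocks_zero₂₁, charpoly_diagonal, ← Finset.prod_mul_distrib]
  refine Finset.prod_congr rfl fun i _ => ?_
  have h3 : (2 : F[X]) = 0 := by
    have := congrArg C h2
    rwa [C_0, map_ofNat] at this
  rw [C_pow]
  linear_combination (C (c i) ^ 2 - X * C (c i)) * h3

end diag

section herm

variable {K V : Type*} [Field K] [StarRing K] [AddCommGroup V] [Module K V]
  {ν : K} {T Y0 : V →ₗ[K] V}

/-- A map is symmetric if it is so on a basis. -/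
theorem sym_of_basis (h : HForm K V) {ι : Type*} (P : Basis ι K V) (Y : V →ₗ[K] V)
    (hP : ∀ i j, h.b (Y (P i)) (P j) = h.b (P i) (Y (P j))) (x y : V) :
    h.b (Y x) y = h.b x (Y y) := by
  have h1 : ∀ j x, h.b (Y x) (P j) = h.b x (Y (P j)) := by
    intro j x
    let f : V →ₗ[K] K :=
      { toFun := fun x => h.b (Y x) (P j) - h.b x (Y (P j))
        map_add' := fun x y => by
          rw [map_add, h.add_left, h.add_left]
          ring
        map_smul' := fun c x => by
          rw [map_smul, h.smul_left, h.smul_left, RingHom.id_apply, smul_eq_mul]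
          ring }
    have hf : f = 0 := P.ext fun i => by
      change h.b (Y (P i)) (P j) - h.b (P i) (Y (P j)) = 0
      rw [hP, sub_self]
    exact sub_eq_zero.mp (LinearMap.congr_fun hf x)
  let f : V →ₗ[K] K :=
    { toFun := fun y => h.b y (Y x) - h.b (Y y) x
      map_add' := fun y z => by
        rw [map_add, h.add_left, h.add_left]
        ring
      map_smul' := fun c y => by
        rw [map_smul, h.smul_left, h.smul_left, RingHom.id_apply, smul_eq_mul]
        ring }
  have hf : f = 0 := P.ext fun j => by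
    change h.b (P j) (Y x) - h.b (Y (P j)) x = 0
    rw [← h.star_b (Y x), h1 j x, h.star_b, sub_self]
  have h2 : h.b y (Y x) - h.b (Y y) x = 0 := LinearMap.congr_fun hf y
  rw [← h.star_b y (Y x), sub_eq_zero.mp h2, h.star_b]

/-- **The symmetric map**, in an orthogonal adapted basis. -/
theorem exists_sym [FiniteDimensional K V] (hK : HForm.StarNT K) (h2 : (2 : K) = 0)
    (h : HForm K V) (hnd : h.Nondeg) (hT : ∀ x, T (T x) = T x + ν • x)
    (hTs : ∀ x y, h.b (T x) y = h.b x (T y) + h.b x y) (hY : ∀ x, Y0 (Y0 x) = x)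
    (hYT : ∀ x, Y0 (T x) = T (Y0 x) + Y0 x) (hYs : ∀ x y, h.b (Y0 x) y = h.b x (Y0 y)) {m : ℕ}
    (hV : finrank K V = 2 * m) (c : Fin m → K) (hc : ∀ i, star (c i) = c i) :
    ∃ Y : V →ₗ[K] V, (∀ x, Y (T x) = T (Y x) + Y x) ∧ (∀ x y, h.b (Y x) y = h.b x (Y y)) ∧
      Y.charpoly = ∏ i, (X ^ 2 - C (c i ^ 2)) := by
  have hkk : ∀ x : K, x + x = 0 := fun x => by rw [← two_mul, h2, zero_mul]
  -- the fixed vectors are isotropic
  have hN : ∀ x : E1 Y0, (x : V) = Y0 (T x) + T x := fun x => by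
    rw [hYT, mem_E1.mp x.2]
    have e : T (x : V) + x + T x = x + (T (x : V) + T x) := by abel
    rw [e, vv h2, add_zero]
  have hiso : ∀ x y : E1 Y0, h.b (x : V) y = 0 := by
    intro x y
    rw [hN x, h.add_left, hYs, mem_E1.mp y.2, hkk]
  have hTT : ∀ x y : E1 Y0, h.b (T (x : V)) (T y) = 0 := by
    intro x y
    rw [hTs, hT, h.add_right, h.smul_right, hiso, mul_zero, add_zero, hkk]
  let hh : HForm K (E1 Y0) :=
    { b := fun x y => h.b x (T y)
      add_left := fun x y z => h.add_left x y (T z)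
      smul_left := fun c x y => h.smul_left c x (T y)
      star_b := fun x y => by rw [h.star_b, hTs, hiso, add_zero] }
  obtain ⟨e, he⟩ := exists_equiv h2 hY hYT
  have hhnd : hh.Nondeg := by
    intro x hx
    have h1 : T (x : V) = 0 := by
      refine hnd _ fun z => ?_
      obtain ⟨⟨y, w⟩, rfl⟩ := e.surjective z
      have h3 : h.b (y : V) (T x) = 0 := hx y
      rw [he, h.add_left, h3, zero_add, hTT]
    have h3 : e (0, x) = e (0, 0) := by rw [he, he, h1, ZeroMemClass.coe_zero, map_zero]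
    exact (Prod.ext_iff.mp (e.injective h3)).2
  obtain ⟨b, hb⟩ := exists_orth hK m (E1 Y0) hh hhnd inferInstance
    (finrank_E1 h2 hY hYT hV)
  obtain ⟨P, hP1, hP2⟩ := exists_basis h2 hY hYT b
  have hP : ∀ i, P (.inr i) = T (P (.inl i)) := fun i => by rw [hP2, hP1]
  have q1 : ∀ i j, h.b (P (.inl i)) (P (.inl j)) = 0 := fun i j => by
    rw [hP1, hP1]
    exact hiso _ _
  have q2 : ∀ i j, h.b (P (.inr i)) (P (.inr j)) = 0 := fun i j => by
    rw [hP2, hP2]
    exact hTT _ _
  have q3 : ∀ i j, i ≠ j → h.b (P (.inl i)) (P (.inr j)) = 0 := fun i j hij => by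
    rw [hP1, hP2]
    exact hb i j hij
  have q4 : ∀ i j, i ≠ j → h.b (P (.inr i)) (P (.inl j)) = 0 := fun i j hij =>
    h.eq_zero_symm (q3 j i (Ne.symm hij))
  have q5 : ∀ i, h.b (P (.inr i)) (P (.inl i)) = h.b (P (.inl i)) (P (.inr i)) := fun i => by
    rw [hP, hTs, q1, add_zero]
  refine ⟨dg P c, dg_comm h2 P c hT hP, sym_of_basis h P _ ?_, dg_charpoly h2 P c⟩
  intro i j
  rcases i with i | i <;> rcases j with j | j
  · rw [dg_inl, dg_inl, h.smul_left, h.smul_right, q1, mul_zero, mul_zero]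
  · rw [dg_inl, dg_inr, h.smul_left, h.add_right, h.smul_right, h.smul_right, q1, mul_zero,
      zero_add]
    by_cases hij : i = j
    · rw [hij, hc]
    · rw [q3 i j hij, mul_zero, mul_zero]
  · rw [dg_inl, dg_inr, h.smul_right, h.add_left, h.smul_left, h.smul_left, q1, mul_zero,
      zero_add]
    by_cases hij : i = j
    · rw [hij, hc]
    · rw [q4 i j hij, mul_zero, mul_zero]
  · rw [dg_inr, dg_inr, h.add_left, h.smul_left, h.smul_left, h.add_right, h.smul_right,
      h.smul_right, q2, mul_zero, mul_zero, add_zero, add_zero]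
    by_cases hij : i = j
    · rw [hij, hc, q5]
    · rw [q3 i j hij, q4 i j hij, mul_zero, mul_zero]

end herm

section mat

variable {F : Type*} [Field F] {n m : ℕ}

theorem tl_mul (A A' : Matrix (Fin n) (Fin n) F) (x : Fin n → F) :
    Matrix.toLin' (A * A') x = Matrix.toLin' A (Matrix.toLin' A' x) := by
  rw [Matrix.toLin'_mul, LinearMap.comp_apply]

theorem mat_comm {T : Matrix (Fin n) (Fin n) F} {Y : (Fin n → F) →ₗ[F] (Fin n → F)}
    (h : ∀ x, Y (Matrix.toLin' T x) = Matrix.toLin' T (Y x) + Y x) :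
    LinearMap.toMatrix' Y * T = (T + 1) * LinearMap.toMatrix' Y := by
  apply Matrix.toLin'.injective
  refine LinearMap.ext fun x => ?_
  rw [tl_mul, tl_mul, map_add, LinearMap.add_apply, Matrix.toLin'_toMatrix', h,
    Matrix.toLin'_one, LinearMap.id_apply]

variable {ν : F}

theorem lin_sq {T : Matrix (Fin n) (Fin n) F} (hT : T * T = T + ν • 1) (x : Fin n → F) :
    Matrix.toLin' T (Matrix.toLin' T x) = Matrix.toLin' T x + ν • x := by
  rw [← tl_mul, hT, map_add, map_smul, LinearMap.add_apply, LinearMap.smul_apply,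
    Matrix.toLin'_one, LinearMap.id_apply]

theorem lin_comm {T Y0 : Matrix (Fin n) (Fin n) F} (hYT : Y0 * T = (T + 1) * Y0) (x : Fin n → F) :
    Matrix.toLin' Y0 (Matrix.toLin' T x) =
      Matrix.toLin' T (Matrix.toLin' Y0 x) + Matrix.toLin' Y0 x := by
  rw [← tl_mul, hYT, tl_mul, map_add, LinearMap.add_apply, Matrix.toLin'_one,
    LinearMap.id_apply]

theorem lin_one {Y0 : Matrix (Fin n) (Fin n) F} (hY : Y0 * Y0 = 1) (x : Fin n → F) :
    Matrix.toLin' Y0 (Matrix.toLin' Y0 x) = x := by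
  rw [← tl_mul, hY, Matrix.toLin'_one, LinearMap.id_apply]

/-- **Matrix form, without hermitian form.** -/
theorem exists_mat2 (h2 : (2 : F) = 0) (hn : n = 2 * m)
    {T Y0 : Matrix (Fin n) (Fin n) F} (hT : T * T = T + ν • 1) (hY : Y0 * Y0 = 1)
    (hYT : Y0 * T = (T + 1) * Y0) (c : Fin m → F) :
    ∃ Y : Matrix (Fin n) (Fin n) F, Y * T = (T + 1) * Y ∧
      Y.charpoly = ∏ i, (X ^ 2 - C (c i ^ 2)) := by
  have hfr : finrank F (E1 (Matrix.toLin' Y0)) = m :=
    finrank_E1 h2 (lin_one hY) (lin_comm hYT) (by rw [finrank_fin_fun, hn])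
  obtain ⟨P, hP1, hP2⟩ := exists_basis h2 (lin_one hY) (lin_comm hYT)
    (finBasisOfFinrankEq F (E1 (Matrix.toLin' Y0)) hfr)
  have hP : ∀ i, P (.inr i) = Matrix.toLin' T (P (.inl i)) := fun i => by rw [hP2, hP1]
  refine ⟨LinearMap.toMatrix' (dg P c), ?_, ?_⟩
  · exact mat_comm (dg_comm h2 P c (lin_sq hT) hP)
  · rw [← LinearMap.toMatrix_eq_toMatrix', LinearMap.charpoly_toMatrix, dg_charpoly h2]

end mat

section matherm

variable {F : Type*} [Field F] [StarRing F] {n m : ℕ}

/-- The adjoint. -/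
theorem adj_iff {H : Matrix (Fin n) (Fin n) F} (hdet : H.det ≠ 0) (hJ : (H⁻¹)ᴴ = H⁻¹)
    (A B : Matrix (Fin n) (Fin n) F) :
    (∀ x y, (colForm H⁻¹ hJ).b (Matrix.toLin' A x) y =
      (colForm H⁻¹ hJ).b x (Matrix.toLin' B y)) ↔ A * H = H * Bᴴ := by
  have hu : IsUnit H.det := isUnit_iff_ne_zero.2 hdet
  have h1 : A * H = H * Bᴴ ↔ H⁻¹ * A = Bᴴ * H⁻¹ := by
    constructor
    · intro h
      calc H⁻¹ * A = H⁻¹ * (A * H) * H⁻¹ := by
            rw [mul_assoc, mul_assoc, mul_nonsing_inv _ hu, mul_one]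
        _ = Bᴴ * H⁻¹ := by
            rw [h, ← mul_assoc, nonsing_inv_mul _ hu, one_mul]
    · intro h
      calc A * H = H * (H⁻¹ * A) * H := by
            rw [← mul_assoc, mul_nonsing_inv _ hu, one_mul]
        _ = H * Bᴴ := by
            rw [h, mul_assoc, mul_assoc, nonsing_inv_mul _ hu, mul_one]
  have h3 : ∀ x y, (colForm H⁻¹ hJ).b (Matrix.toLin' A x) y = star y ⬝ᵥ ((H⁻¹ * A) *ᵥ x) := by
    intro x y
    rw [colForm_b, Matrix.toLin'_apply, mulVec_mulVec]
  have h4 : ∀ x y, (colForm H⁻¹ hJ).b x (Matrix.toLin' B y) =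
      star y ⬝ᵥ ((Bᴴ * H⁻¹) *ᵥ x) := by
    intro x y
    rw [colForm_b, Matrix.toLin'_apply, star_mulVec, ← dotProduct_mulVec, mulVec_mulVec]
  rw [h1]
  constructor
  · intro h
    ext i j
    have h5 := h (Pi.single j 1) (Pi.single i 1)
    rw [h3, h4] at h5
    simpa using h5
  · intro h x y
    rw [h3, h4, h]

/-- **Matrix form, with a hermitian form.** -/
theorem exists_mat_herm2 (hK : HForm.StarNT F) (h2 : (2 : F) = 0) {ν : F}
    (hn : n = 2 * m) {H T Y0 : Matrix (Fin n) (Fin n) F} (hH : Hᴴ = H) (hdet : H.det ≠ 0)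
    (hT : T * T = T + ν • 1) (hTH : T * H = H * (T + 1)ᴴ) (hY : Y0 * Y0 = 1)
    (hYT : Y0 * T = (T + 1) * Y0) (hYH : Y0 * H = H * Y0ᴴ) (c : Fin m → F)
    (hc : ∀ i, star (c i) = c i) :
    ∃ Y : Matrix (Fin n) (Fin n) F, Y * T = (T + 1) * Y ∧ Y * H = H * Yᴴ ∧
      Y.charpoly = ∏ i, (X ^ 2 - C (c i ^ 2)) := by
  have hJ := isHerm_inv hH
  have q4 := (adj_iff hdet hJ T (T + 1)).mpr hTH
  have q5 := (adj_iff hdet hJ Y0 Y0).mpr hYH
  obtain ⟨Y, hY1, hY2, hY3⟩ := exists_sym hK h2 (colForm H⁻¹ hJ) (colForm_nondeg hdet hJ)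
    (lin_sq hT) (fun x y => by
      rw [q4, map_add, LinearMap.add_apply, Matrix.toLin'_one, LinearMap.id_apply,
        HForm.add_right]) (lin_one hY) (lin_comm hYT) q5
    (by rw [finrank_fin_fun, hn]) c hc
  refine ⟨LinearMap.toMatrix' Y, mat_comm hY1, ?_, ?_⟩
  · refine (adj_iff hdet hJ _ _).mp fun x y => ?_
    rw [Matrix.toLin'_toMatrix', hY2]
  · rw [← LinearMap.toMatrix_eq_toMatrix', LinearMap.charpoly_toMatrix, hY3]

end matherm

end Vale.Agent.P011.H961.C2.Diag
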