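import Mathlib.Analysis.Normed.Group.Ultra
import Mathlib.Analysis.Normed.Field.Basic
import Mathlib.Topology.Algebra.InfiniteSum.Nonarchimedean
import Mathlib.Topology.Instances.Matrix
import Mathlib.Topology.MetricSpace.Sequences
import Mathlib.LinearAlgebra.Matrix.ToLinearEquiv
import Mathlib.LinearAlgebra.Matrix.Charpoly.Coeff
import Mathlib.Data.Nat.Factorization.Basic
import Mathlib.RingTheory.Polynomial.Basic
import Mathlib.Algebra.Polynomial.Lifts
import Mathlib.Analysis.Normed.Field.Lemmas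
import Mathlib.Analysis.SpecificLimits.Normed

/-!
# Characteristic two: matrices over a complete ultrametric field

The equation `r + ν r ^ 2 = c` and the odd powers of an integral matrix with unit determinant.
-/

open Filter Topology Polynomial

set_option linter.unusedSectionVars false

namespace Vale.Agent.P011.H961.C2.Half

section ring

variable {R : Type*} [Ring R] (h2 : (2 : R) = 0)

include h2

theorem two_zero (x : R) : x + x = 0 := by rw [← two_mul, h2, zero_mul]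

theorem sum_sq {f : ℕ → R} (hc : ∀ i j, f i * f j = f j * f i) (M : ℕ) :
    (∑ j ∈ Finset.range M, f j) * (∑ j ∈ Finset.range M, f j) =
      ∑ j ∈ Finset.range M, f j * f j := by
  induction M with
  | zero => simp
  | succ M ih =>
    obtain ⟨P, hP⟩ : ∃ P, P = ∑ j ∈ Finset.range M, f j := ⟨_, rfl⟩
    have h3 : P * f M = f M * P := by
      rw [hP, Finset.sum_mul, Finset.mul_sum]
      exact Finset.sum_congr rfl fun i _ => hc _ _
    rw [Finset.sum_range_succ, Finset.sum_range_succ, ← ih, ← hP, add_mul, mul_add, mul_add, h3]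
    have e : P * P + f M * P + (f M * P + f M * f M) =
        P * P + f M * f M + (f M * P + f M * P) := by abel
    rw [e, two_zero h2, add_zero]

theorem sum_pow {f : ℕ → R} (hc : ∀ i j, f i * f j = f j * f i) (M J : ℕ) :
    (∑ j ∈ Finset.range M, f j) ^ 2 ^ J = ∑ j ∈ Finset.range M, f j ^ 2 ^ J := by
  induction J with
  | zero => simp
  | succ J ih =>
    have hc' : ∀ i j, f i ^ 2 ^ J * f j ^ 2 ^ J = f j ^ 2 ^ J * f i ^ 2 ^ J := fun i j =>
      (show Commute (f i) (f j) from hc i j).pow_pow _ _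
    rw [pow_succ, pow_mul, ih, sq, sum_sq h2 hc']
    refine Finset.sum_congr rfl fun j _ => ?_
    rw [pow_mul, sq]

theorem sub_one_pow (x : R) (a : ℕ) : (x - 1) ^ 2 ^ a = x ^ 2 ^ a - 1 := by
  induction a with
  | zero => simp
  | succ a ih =>
    obtain ⟨y, hy⟩ : ∃ y, y = x ^ 2 ^ a := ⟨_, rfl⟩
    rw [pow_succ, pow_mul, ih, pow_mul, ← hy, sq, sq]
    have e : (y - 1) * (y - 1) = y * y - 1 - (y + y) + (1 + 1) := by noncomm_ring
    rw [e, two_zero h2, two_zero h2, sub_zero, add_zero]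

end ring

variable {L : Type*} [NontriviallyNormedField L] [IsUltrametricDist L] {n : ℕ}

/-- The largest entry. -/
noncomputable def en (A : Matrix (Fin n) (Fin n) L) : ℝ := ‖(fun i j => A i j : Fin n → Fin n → L)‖

theorem en_nonneg (A : Matrix (Fin n) (Fin n) L) : 0 ≤ en A := norm_nonneg _

theorem entry_le (A : Matrix (Fin n) (Fin n) L) (i j : Fin n) : ‖A i j‖ ≤ en A :=
  (norm_le_pi_norm (A i) j).trans (norm_le_pi_norm (fun i j => A i j : Fin n → Fin n → L) i)

theorem en_le {A : Matrix (Fin n) (Fin n) L} {r : ℝ} (hr : 0 ≤ r) :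
    en A ≤ r ↔ ∀ i j, ‖A i j‖ ≤ r := by
  rw [en, pi_norm_le_iff_of_nonneg hr]
  exact forall_congr' fun i => pi_norm_le_iff_of_nonneg hr

theorem en_add (A B : Matrix (Fin n) (Fin n) L) : en (A + B) ≤ max (en A) (en B) := by
  rw [en_le (le_max_of_le_left (en_nonneg _))]
  intro i j
  exact (IsUltrametricDist.norm_add_le_max _ _).trans (max_le_max (entry_le A i j) (entry_le B i j))

theorem en_zero : en (0 : Matrix (Fin n) (Fin n) L) = 0 := by
  refine le_antisymm ((en_le le_rfl).mpr fun i j => ?_) (en_nonneg _)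
  rw [Matrix.zero_apply, norm_zero]

theorem en_neg (A : Matrix (Fin n) (Fin n) L) : en (-A) = en A := by
  refine le_antisymm ((en_le (en_nonneg _)).mpr fun i j => ?_) ((en_le (en_nonneg _)).mpr fun i j => ?_)
  · rw [Matrix.neg_apply, norm_neg]
    exact entry_le A i j
  · have h := entry_le (-A) i j
    rwa [Matrix.neg_apply, norm_neg] at h

theorem en_sub (A B : Matrix (Fin n) (Fin n) L) : en (A - B) ≤ max (en A) (en B) := by
  rw [sub_eq_add_neg]
  refine (en_add _ _).trans ?_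
  rw [en_neg]

theorem en_smul (c : L) (A : Matrix (Fin n) (Fin n) L) : en (c • A) ≤ ‖c‖ * en A := by
  rw [en_le (mul_nonneg (norm_nonneg _) (en_nonneg _))]
  intro i j
  rw [Matrix.smul_apply, smul_eq_mul, norm_mul]
  exact mul_le_mul_of_nonneg_left (entry_le A i j) (norm_nonneg _)

theorem en_mul (A B : Matrix (Fin n) (Fin n) L) : en (A * B) ≤ en A * en B := by
  have h0 : 0 ≤ en A * en B := mul_nonneg (en_nonneg _) (en_nonneg _)
  rw [en_le h0]
  intro i j
  rw [Matrix.mul_apply]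
  refine IsUltrametricDist.norm_sum_le_of_forall_le_of_nonneg h0 fun l _ => ?_
  rw [norm_mul]
  exact mul_le_mul (entry_le A i l) (entry_le B l j) (norm_nonneg _) (en_nonneg _)

theorem en_sum {ι : Type*} (s : Finset ι) (f : ι → Matrix (Fin n) (Fin n) L) {r : ℝ} (hr : 0 ≤ r)
    (h : ∀ i ∈ s, en (f i) ≤ r) : en (∑ i ∈ s, f i) ≤ r := by
  classical
  induction s using Finset.induction_on with
  | empty =>
    rw [Finset.sum_empty, en_zero]
    exact hr
  | insert b s hb ih =>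
    rw [Finset.sum_insert hb]
    exact (en_add _ _).trans (max_le (h b (Finset.mem_insert_self _ _))
      (ih fun i hi => h i (Finset.mem_insert_of_mem hi)))

theorem tendsto_zero_iff {x : ℕ → Matrix (Fin n) (Fin n) L} :
    Tendsto x atTop (𝓝 0) ↔ Tendsto (fun j => en (x j)) atTop (𝓝 0) := by
  constructor
  · intro h
    have h1 : Tendsto (fun j => (fun i l => x j i l : Fin n → Fin n → L)) atTop (𝓝 0) := h
    exact tendsto_zero_iff_norm_tendsto_zero.mp h1
  · intro h
    have h1 : Tendsto (fun j => (fun i l => x j i l : Fin n → Fin n → L)) atTop (𝓝 0) :=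
      tendsto_zero_iff_norm_tendsto_zero.mpr h
    exact h1

/-- A matrix with a small power is topologically nilpotent. -/
theorem tendsto_pow {x : Matrix (Fin n) (Fin n) L} {N : ℕ} (hN : N ≠ 0) (hx : en (x ^ N) < 1) :
    Tendsto (fun j : ℕ => x ^ j) atTop (𝓝 0) := by
  obtain ⟨ρ, hρ⟩ : ∃ ρ, ρ = en (x ^ N) := ⟨_, rfl⟩
  have hρ0 : 0 ≤ ρ := by rw [hρ]; exact en_nonneg _
  rw [← hρ] at hx
  obtain ⟨C, hC0, hC⟩ : ∃ C : ℝ, 0 ≤ C ∧ ∀ s < N, en (x ^ s) ≤ C := by
    refine ⟨∑ s ∈ Finset.range N, en (x ^ s), Finset.sum_nonneg fun _ _ => en_nonneg _,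
      fun s hs => ?_⟩
    exact Finset.single_le_sum (f := fun s => en (x ^ s)) (fun _ _ => en_nonneg _)
      (Finset.mem_range.mpr hs)
  have h1 : ∀ q s : ℕ, s < N → en (x ^ (N * q + s)) ≤ ρ ^ q * C := by
    intro q
    induction q with
    | zero =>
      intro s hs
      rw [mul_zero, zero_add, pow_zero, one_mul]
      exact hC s hs
    | succ q ih =>
      intro s hs
      have e : N * (q + 1) + s = N + (N * q + s) := by ring
      rw [e, pow_add]
      calc en (x ^ N * x ^ (N * q + s)) ≤ en (x ^ N) * en (x ^ (N * q + s)) := en_mul _ _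
        _ ≤ ρ * (ρ ^ q * C) := by
          rw [← hρ]
          exact mul_le_mul_of_nonneg_left (ih s hs) hρ0
        _ = ρ ^ (q + 1) * C := by ring
  rw [tendsto_zero_iff]
  have h2 : Tendsto (fun j : ℕ => ρ ^ (j / N) * C) atTop (𝓝 0) := by
    have h3 : Tendsto (fun j : ℕ => ρ ^ (j / N)) atTop (𝓝 0) :=
      (tendsto_pow_atTop_nhds_zero_of_lt_one hρ0 hx).comp
        (Nat.tendsto_div_const_atTop hN)
    have h4 := h3.mul_const C
    rwa [zero_mul] at h4
  refine squeeze_zero (fun j => en_nonneg _) (fun j => ?_) h2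
  have h3 := h1 (j / N) (j % N) (Nat.mod_lt _ (Nat.pos_of_ne_zero hN))
  rwa [Nat.div_add_mod] at h3

theorem mat_two (h2 : (2 : L) = 0) : (2 : Matrix (Fin n) (Fin n) L) = 0 := by
  have h : (2 : Matrix (Fin n) (Fin n) L) = (2 : L) • 1 := by
    rw [two_smul]
    norm_num
  rw [h, h2, zero_smul]

/-- `1 + c` is invertible if `c` is topologically nilpotent. -/
theorem isUnit_one_add (h2 : (2 : L) = 0) {c : Matrix (Fin n) (Fin n) L}
    (hc : Tendsto (fun j : ℕ => c ^ j) atTop (𝓝 0)) : IsUnit (1 + c) := by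
  rw [Matrix.isUnit_iff_isUnit_det, isUnit_iff_ne_zero]
  intro h0
  obtain ⟨w, hw0, hw⟩ := Matrix.exists_mulVec_eq_zero_iff.mpr h0
  apply hw0
  have h3 : c.mulVec w = w := by
    rw [Matrix.add_mulVec, Matrix.one_mulVec] at hw
    have h4 : w + w = 0 := by
      ext i
      rw [Pi.add_apply, ← two_mul, h2, zero_mul, Pi.zero_apply]
    rw [← h4] at hw
    exact add_left_cancel hw
  have h4 : ∀ j : ℕ, (c ^ j).mulVec w = w := by
    intro j
    induction j with
    | zero => rw [pow_zero, Matrix.one_mulVec]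
    | succ j ih => rw [pow_succ, ← Matrix.mulVec_mulVec, h3, ih]
  have h5 : Tendsto (fun j : ℕ => (c ^ j).mulVec w) atTop (𝓝 ((0 : Matrix (Fin n) (Fin n) L).mulVec w)) := by
    have h6 : Continuous fun A : Matrix (Fin n) (Fin n) L => A.mulVec w := by fun_prop
    exact (h6.tendsto 0).comp hc
  simp only [h4, Matrix.zero_mulVec] at h5
  exact tendsto_nhds_unique tendsto_const_nhds h5

/-- **The equation `r + ν r ^ 2 = c`** for a topologically nilpotent matrix `c`. -/
theorem exists_half [CompleteSpace L] (h2 : (2 : L) = 0) {ν : L} (hν : ‖ν‖ ≤ 1)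
    {c : Matrix (Fin n) (Fin n) L} (hc : Tendsto (fun j : ℕ => c ^ j) atTop (𝓝 0)) :
    ∃ r : Matrix (Fin n) (Fin n) L, r + ν • (r * r) = c ∧
      Tendsto (fun j : ℕ => r ^ j) atTop (𝓝 0) ∧ IsUnit (1 + r + ν • (r * r)) ∧
      ∀ S : Set (Matrix (Fin n) (Fin n) L), IsClosed S →
        (∀ J : ℕ, ∑ j ∈ Finset.range J, ν ^ (2 ^ j - 1) • c ^ 2 ^ j ∈ S) → r ∈ S := by
  have h2M : (2 : Matrix (Fin n) (Fin n) L) = 0 := mat_two h2
  obtain ⟨a, ha⟩ : ∃ a : ℕ → Matrix (Fin n) (Fin n) L, a = fun j => ν ^ (2 ^ j - 1) • c ^ 2 ^ j :=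
    ⟨_, rfl⟩
  have hcc : ∀ i j, a i * a j = a j * a i := by
    intro i j
    rw [ha]
    simp only [smul_mul_smul_comm, ← pow_add, add_comm]
  have hen : ∀ i, en (a i) ≤ en (c ^ 2 ^ i) := by
    intro i
    rw [ha]
    refine (en_smul _ _).trans (mul_le_of_le_one_left (en_nonneg _) ?_)
    rw [norm_pow]
    exact pow_le_one₀ (norm_nonneg _) hν
  have hc2 : Tendsto (fun j : ℕ => en (c ^ 2 ^ j)) atTop (𝓝 0) :=
    (tendsto_zero_iff.mp hc).comp (tendsto_pow_atTop_atTop_of_one_lt one_lt_two)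
  have ha0 : Tendsto (fun j => en (a j)) atTop (𝓝 0) :=
    squeeze_zero (fun j => en_nonneg _) hen hc2
  have hs : ∀ i j, Summable fun l => a l i j := by
    intro i j
    refine NonarchimedeanAddGroup.summable_of_tendsto_cofinite_zero ?_
    rw [Nat.cofinite_eq_atTop]
    exact squeeze_zero_norm (fun l => entry_le _ i j) ha0
  obtain ⟨r, hr⟩ : ∃ r : Matrix (Fin n) (Fin n) L, r = fun i j => ∑' l, a l i j := ⟨_, rfl⟩
  obtain ⟨P, hP⟩ : ∃ P : ℕ → Matrix (Fin n) (Fin n) L, P = fun J => ∑ l ∈ Finset.range J, a l :=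
    ⟨_, rfl⟩
  have hPr : Tendsto P atTop (𝓝 r) := by
    refine tendsto_pi_nhds.mpr fun i => tendsto_pi_nhds.mpr fun j => ?_
    have h3 := (hs i j).hasSum.tendsto_sum_nat
    rw [hr, hP]
    refine h3.congr fun J => ?_
    exact (Matrix.sum_apply i j _ _).symm
  have hsucc : ∀ j, a (j + 1) = ν • (a j * a j) := by
    intro j
    rw [ha]
    simp only [smul_mul_smul_comm, smul_smul]
    rw [← pow_add, ← pow_add, ← pow_succ']
    congr 2
    · have h3 : 1 ≤ 2 ^ j := Nat.one_le_two_pow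
      rw [pow_succ]
      omega
    · rw [pow_succ]
      ring
  have h0 : a 0 = c := by
    rw [ha]
    simp
  have hrec : ∀ J, P (J + 1) = c + ν • (P J * P J) := by
    intro J
    rw [hP]
    change ∑ l ∈ Finset.range (J + 1), a l =
      c + ν • ((∑ l ∈ Finset.range J, a l) * (∑ l ∈ Finset.range J, a l))
    rw [sum_sq h2M hcc, Finset.sum_range_succ', h0, Finset.smul_sum, add_comm]
    congr 1
    exact Finset.sum_congr rfl fun j _ => hsucc j
  have hlim : r = c + ν • (r * r) := by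
    have h3 : Tendsto (fun J => P (J + 1)) atTop (𝓝 r) := (tendsto_add_atTop_iff_nat 1).mpr hPr
    have h4 : Tendsto (fun J => c + ν • (P J * P J)) atTop (𝓝 (c + ν • (r * r))) :=
      ((hPr.mul hPr).const_smul ν).const_add c
    simp only [hrec] at h3
    exact tendsto_nhds_unique h3 h4
  have hfin : r + ν • (r * r) = c := by
    have e : r + ν • (r * r) = c + (ν • (r * r) + ν • (r * r)) := by
      rw [← add_assoc, ← hlim]
    rw [e, two_zero h2M, add_zero]
  refine ⟨r, hfin, ?_, ?_, fun S hS h => ?_⟩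
  · -- the powers
    obtain ⟨J, hJ⟩ := (hc2.eventually (gt_mem_nhds (show (0 : ℝ) < 1 / 2 by norm_num))).exists_forall_of_atTop
    refine tendsto_pow (N := 2 ^ J) (pow_ne_zero _ two_ne_zero) ?_
    have h3 : ∀ M, en (P M ^ 2 ^ J) ≤ 1 / 2 := by
      intro M
      rw [hP]
      change en ((∑ l ∈ Finset.range M, a l) ^ 2 ^ J) ≤ 1 / 2
      rw [sum_pow h2M hcc]
      refine en_sum _ _ (by norm_num) fun j _ => ?_
      rw [ha]
      change en ((ν ^ (2 ^ j - 1) • c ^ 2 ^ j) ^ 2 ^ J) ≤ 1 / 2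
      rw [smul_pow, ← pow_mul c, ← pow_add]
      refine (en_smul _ _).trans ?_
      refine (mul_le_of_le_one_left (en_nonneg _) ?_).trans (hJ (j + J) (Nat.le_add_left _ _)).le
      rw [norm_pow, norm_pow]
      exact pow_le_one₀ (pow_nonneg (norm_nonneg _) _) (pow_le_one₀ (norm_nonneg _) hν)
    have h4 : Tendsto (fun M => P M ^ 2 ^ J) atTop (𝓝 (r ^ 2 ^ J)) := hPr.pow _
    have h5 : en (r ^ 2 ^ J) ≤ 1 / 2 := by
      rw [en_le (by norm_num)]
      intro i j
      have h6 : Tendsto (fun M => ‖(P M ^ 2 ^ J) i j‖) atTop (𝓝 ‖(r ^ 2 ^ J) i j‖) :=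
        ((tendsto_pi_nhds.mp (tendsto_pi_nhds.mp h4 i)) j).norm
      exact le_of_tendsto' h6 fun M => (entry_le _ i j).trans (h3 M)
    exact h5.trans_lt (by norm_num)
  · rw [add_assoc, hfin]
    exact isUnit_one_add h2 hc
  · refine hS.mem_of_tendsto hPr (Eventually.of_forall fun J => ?_)
    have h3 := h J
    rw [hP, ha]
    exact h3

variable (L) in
/-- The integral elements. -/
def T0 : Subring L where
  carrier := {x | ‖x‖ ≤ 1}
  mul_mem' {x y} hx hy := by
    change ‖x * y‖ ≤ 1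
    rw [norm_mul]
    exact mul_le_one₀ hx (norm_nonneg _) hy
  one_mem' := norm_one.le
  add_mem' {x y} hx hy := (IsUltrametricDist.norm_add_le_max x y).trans (max_le hx hy)
  zero_mem' := by
    change ‖(0 : L)‖ ≤ 1
    rw [norm_zero]
    exact zero_le_one
  neg_mem' {x} hx := by
    change ‖-x‖ ≤ 1
    rw [norm_neg]
    exact hx

/-- **The odd powers.** -/
theorem exists_odd_pow [ProperSpace L] (h2 : (2 : L) = 0) {b : Matrix (Fin n) (Fin n) L}
    {f : L[X]} (hf : f.Monic) (hfb : aeval b f = 0) (hint : ∀ i, ‖f.coeff i‖ ≤ 1)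
    (h0 : ‖f.coeff 0‖ = 1) :
    ∃ M : ℕ, Odd M ∧ Tendsto (fun j : ℕ => (b ^ M - 1) ^ j) atTop (𝓝 0) := by
  have h2M : (2 : Matrix (Fin n) (Fin n) L) = 0 := mat_two h2
  obtain ⟨g, hgf, hgd, hgm⟩ : ∃ g : (T0 L)[X], g.map (T0 L).subtype = f ∧
      g.natDegree = f.natDegree ∧ g.Monic := by
    refine Polynomial.lifts_and_natDegree_eq_and_monic ?_ hf
    rw [lifts_iff_coeff_lifts]
    intro i
    exact ⟨⟨f.coeff i, hint i⟩, rfl⟩
  obtain ⟨ψ, hψ⟩ : ∃ ψ : (T0 L)[X] →+* Matrix (Fin n) (Fin n) L,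
      ψ = ((aeval b : L[X] →ₐ[L] Matrix (Fin n) (Fin n) L) : L[X] →+* _).comp
        (mapRingHom (T0 L).subtype) := ⟨_, rfl⟩
  have hψa : ∀ p, ψ p = aeval b (p.map (T0 L).subtype) := fun p => by rw [hψ]; rfl
  have hψg : ψ g = 0 := by rw [hψa, hgf, hfb]
  have hψX : ψ X = b := by rw [hψa, map_X, aeval_X]
  -- the bound for integral polynomials
  obtain ⟨Z, hZ0, hZ⟩ : ∃ Z : ℝ, 0 ≤ Z ∧ ∀ p : (T0 L)[X], en (ψ p) ≤ Z := by
    refine ⟨∑ s ∈ Finset.range (f.natDegree + 1), en (b ^ s),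
      Finset.sum_nonneg fun _ _ => en_nonneg _, fun p => ?_⟩
    have h3 : ψ p = ψ (p %ₘ g) := by
      conv_lhs => rw [← modByMonic_add_div p g]
      rw [map_add, map_mul, hψg, zero_mul, add_zero]
    have h4 : ((p %ₘ g).map (T0 L).subtype).natDegree < f.natDegree + 1 := by
      refine Nat.lt_succ_of_le (natDegree_map_le.trans ?_)
      rw [← hgd]
      exact natDegree_modByMonic_le p hgm
    rw [h3, hψa, aeval_eq_sum_range' h4]
    refine en_sum _ _ (Finset.sum_nonneg fun _ _ => en_nonneg _) fun s hs => ?_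
    refine (en_smul _ _).trans ((mul_le_of_le_one_left (en_nonneg _) ?_).trans ?_)
    · rw [coeff_map]
      exact ((p %ₘ g).coeff s).2
    · exact Finset.single_le_sum (f := fun s => en (b ^ s)) (fun _ _ => en_nonneg _) hs
  -- the inverse
  obtain ⟨G, hG⟩ : ∃ G : (T0 L)[X], ψ G * b = 1 := by
    have h3 : ‖(f.coeff 0)⁻¹‖ ≤ 1 := by rw [norm_inv, h0, inv_one]
    have h4 : g.coeff 0 * ⟨(f.coeff 0)⁻¹, h3⟩ = 1 := by
      apply Subtype.ext
      change ((g.coeff 0 : T0 L) : L) * (f.coeff 0)⁻¹ = 1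
      have h5 : ((g.coeff 0 : T0 L) : L) = f.coeff 0 := by
        rw [← hgf, coeff_map]
        rfl
      rw [h5]
      refine mul_inv_cancel₀ fun h6 => ?_
      rw [h6, norm_zero] at h0
      exact zero_ne_one h0
    refine ⟨-(divX g * C ⟨(f.coeff 0)⁻¹, h3⟩), ?_⟩
    have h5 : divX g * X + C (g.coeff 0) = g := divX_mul_X_add g
    have h6 : -(divX g * C (⟨(f.coeff 0)⁻¹, h3⟩ : T0 L)) * X =
        1 - g * C ⟨(f.coeff 0)⁻¹, h3⟩ := by
      conv_rhs => rw [← h5]
      rw [← C_1, ← h4, C_mul]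
      ring
    have h7 := congrArg ψ h6
    rw [map_mul, hψX, map_sub, map_one, map_mul, hψg, zero_mul, sub_zero] at h7
    exact h7
  -- two close powers
  have hbd : ∀ j : ℕ, (fun i l => (b ^ j) i l : Fin n → Fin n → L) ∈
      Metric.closedBall (0 : Fin n → Fin n → L) Z := by
    intro j
    rw [mem_closedBall_zero_iff]
    have h3 := hZ (X ^ j)
    rw [map_pow, hψX] at h3
    exact h3
  obtain ⟨A, -, φ, hφ, hA⟩ := tendsto_subseq_of_bounded Metric.isBounded_closedBall hbd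
  have hdiff : Tendsto (fun j : ℕ => en (b ^ φ (j + 1) - b ^ φ j)) atTop (𝓝 0) := by
    have h3 := ((tendsto_add_atTop_iff_nat 1).mpr hA).sub hA
    rw [sub_self] at h3
    exact tendsto_zero_iff_norm_tendsto_zero.mp h3
  obtain ⟨j, hj⟩ := (hdiff.eventually (gt_mem_nhds (show (0 : ℝ) < 1 / (Z + 1) by
    positivity))).exists
  have hlt : φ j < φ (j + 1) := hφ (Nat.lt_succ_self j)
  obtain ⟨e, he⟩ : ∃ e, e = φ (j + 1) - φ j := ⟨_, rfl⟩
  have he0 : e ≠ 0 := by omega
  have hsmall : en (b ^ e - 1) < 1 := by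
    have h3 : b ^ e - 1 = ψ (G ^ φ j) * (b ^ φ (j + 1) - b ^ φ j) := by
      have h4 : ψ (G ^ φ j) * b ^ φ j = 1 := by
        rw [← hψX, ← map_pow, ← map_mul, ← mul_pow, map_pow, map_mul, hψX, hG, one_pow]
      have h5 : b ^ φ (j + 1) = b ^ φ j * b ^ e := by
        rw [← pow_add]
        congr 1
        omega
      rw [mul_sub, h5, ← mul_assoc, h4, one_mul]
    rw [h3]
    refine (en_mul _ _).trans_lt ?_
    calc en (ψ (G ^ φ j)) * en (b ^ φ (j + 1) - b ^ φ j)
        ≤ Z * en (b ^ φ (j + 1) - b ^ φ j) := mul_le_mul_of_nonneg_right (hZ _) (en_nonneg _)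
      _ ≤ Z * (1 / (Z + 1)) := mul_le_mul_of_nonneg_left hj.le hZ0
      _ < 1 := by
        rw [mul_one_div, div_lt_one (by positivity)]
        exact lt_add_one Z
  obtain ⟨a, M, hM, heM⟩ := Nat.exists_eq_two_pow_mul_odd he0
  refine ⟨M, hM, tendsto_pow (N := 2 ^ a) (pow_ne_zero _ two_ne_zero) ?_⟩
  rw [sub_one_pow h2M, ← pow_mul, mul_comm M, ← heM]
  exact hsmall

end Vale.Agent.P011.H961.C2.Half
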